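import Mathlib
import Vale.Agent.P130.Simple.Defs
import Vale.Agent.P130.Simple.ChainProof
import Vale.Agent.P130.Simple.SpaceProof
import Vale.Agent.P130.Simple.SpectralProof
import Vale.Agent.P130.Simple.PatternProof
import Vale.Agent.P130.Simple.ChirpProof
import Vale.Agent.P130.Simple.PackingProof
import Vale.Agent.P130.Simple.AverageProof
import Vale.Agent.P130.Simple.WeightProof
import Vale.Agent.P130.Simple.CombineProof

/-!
# P130: a transformation with simple Lebesgue spectrum
-/

open MeasureTheory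
open scoped ComplexConjugate
open Vale.Agent.P130.Simple

namespace Vale.Agent.Results.P130.SimpleLebesgueSpectrum

/-- There is an invertible probability preserving transformation with simple Lebesgue spectrum. -/
theorem result :
    ∃ (μ : Measure ℝ) (T : ℝ ≃ᵐ ℝ), IsProbabilityMeasure μ ∧ NoAtoms μ ∧
      MeasurePreserving T μ μ ∧
      ∃ f : ℝ → ℂ, MemLp f 2 μ ∧ ∫ x, f x ∂μ = 0 ∧
        (∀ n m : ℤ, ∫ x, conj (f ((T.toEquiv ^ n) x)) * f ((T.toEquiv ^ m) x) ∂μ =
          if n = m then 1 else 0) ∧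
        ∀ g : ℝ → ℂ, MemLp g 2 μ → ∫ x, g x ∂μ = 0 →
          (∀ n : ℤ, ∫ x, conj (f ((T.toEquiv ^ n) x)) * g x ∂μ = 0) → g =ᵐ[μ] 0 :=
  banach_of (combine_stmt pattern_stmt chirp_stmt packing_stmt average_stmt weight_stmt)
    chain_stmt space_stmt spectral_stmt

end Vale.Agent.Results.P130.SimpleLebesgueSpectrum
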